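import Mathlib
import Vale.Agent.Lib.P137.helper41.Defs

/-!
# P137 pool job BR5 (helper30): Tonelli on the half line

`(n + 1) * ∫_0^∞ ρ^n ∫_ρ^∞ h = ∫_0^∞ s^(n+1) h(s) ds` for measurable `h ≥ 0`, in `[0, ∞]`.
-/

namespace Vale.Agent.Lib.P137.H30

open Vale.Agent.Lib.P137 MeasureTheory Metric Set Filter
open scoped ENNReal NNReal Topology

/-- The integral of `ρ ^ n` over `(0, s)`. -/
theorem br5_lintegral_pow (n : ℕ) (s : ℝ) (hs : 0 ≤ s) :
    ∫⁻ ρ in Ioo (0 : ℝ) s, ENNReal.ofReal (ρ ^ n)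
      = ENNReal.ofReal (s ^ (n + 1) / ((n : ℝ) + 1)) := by
  rw [setLIntegral_congr Ioo_ae_eq_Ioc]
  have h0 : ∫ x in (0 : ℝ)..s, x ^ n = s ^ (n + 1) / ((n : ℝ) + 1) := by
    rw [integral_pow]
    simp
  rw [← h0, intervalIntegral.integral_of_le hs, ofReal_integral_eq_lintegral_ofReal]
  · exact (continuous_pow n).integrableOn_Ioc
  · refine (ae_restrict_iff' measurableSet_Ioc).2 (Filter.Eventually.of_forall fun t ht => ?_)
    exact pow_nonneg ht.1.le n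

theorem tonelli_tail (n : ℕ) (h : ℝ → ℝ≥0∞) (hh : Measurable h) :
    (n + 1 : ℝ≥0∞) * ∫⁻ ρ in Ioi (0 : ℝ), ENNReal.ofReal (ρ ^ n) * ∫⁻ s in Ioi ρ, h s =
      ∫⁻ s in Ioi (0 : ℝ), ENNReal.ofReal (s ^ (n + 1)) * h s := by
  obtain ⟨K, hKdef⟩ : ∃ K : ℝ × ℝ → ℝ≥0∞, K = Set.indicator {p : ℝ × ℝ | 0 < p.1 ∧ p.1 < p.2}
      (fun p => ENNReal.ofReal (p.1 ^ n) * h p.2) := ⟨_, rfl⟩
  have hset : MeasurableSet {p : ℝ × ℝ | 0 < p.1 ∧ p.1 < p.2} :=
    (measurableSet_lt measurable_const measurable_fst).inter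
      (measurableSet_lt measurable_fst measurable_snd)
  have hK : Measurable K := by
    rw [hKdef]
    refine Measurable.indicator ?_ hset
    exact (ENNReal.measurable_ofReal.comp (measurable_fst.pow_const n)).mul
      (hh.comp measurable_snd)
  have hKin : ∀ ρ s : ℝ, 0 < ρ → ρ < s → K (ρ, s) = ENNReal.ofReal (ρ ^ n) * h s := by
    intro ρ s h1 h2
    rw [hKdef]
    exact Set.indicator_of_mem (show (ρ, s) ∈ {p : ℝ × ℝ | 0 < p.1 ∧ p.1 < p.2} from ⟨h1, h2⟩) _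
  have hKout : ∀ ρ s : ℝ, ¬ (0 < ρ ∧ ρ < s) → K (ρ, s) = 0 := by
    intro ρ s hn
    rw [hKdef, Set.indicator_apply]
    exact if_neg hn
  have h1 : ∀ ρ : ℝ, ∫⁻ s, K (ρ, s)
      = (Ioi (0 : ℝ)).indicator (fun ρ => ENNReal.ofReal (ρ ^ n) * ∫⁻ s in Ioi ρ, h s) ρ := by
    intro ρ
    by_cases hρ : 0 < ρ
    · rw [Set.indicator_of_mem (Set.mem_Ioi.2 hρ), ← lintegral_const_mul _ hh,
        ← lintegral_indicator measurableSet_Ioi]
      refine lintegral_congr fun s => ?_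
      rw [Set.indicator_apply]
      split_ifs with hs
      · exact hKin ρ s hρ (Set.mem_Ioi.1 hs)
      · exact hKout ρ s (fun hmem => hs (Set.mem_Ioi.2 hmem.2))
    · rw [Set.indicator_of_notMem (fun hmem => hρ (Set.mem_Ioi.1 hmem))]
      have hz : ∀ s, K (ρ, s) = 0 := fun s => hKout ρ s (fun hmem => hρ hmem.1)
      simp [hz]
  have h2 : ∀ s : ℝ, ∫⁻ ρ, K (ρ, s)
      = (Ioi (0 : ℝ)).indicator
        (fun s => ENNReal.ofReal (s ^ (n + 1) / ((n : ℝ) + 1)) * h s) s := by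
    intro s
    by_cases hs : 0 < s
    · have hmc : (∫⁻ ρ in Ioo (0 : ℝ) s, ENNReal.ofReal (ρ ^ n)) * h s
          = ∫⁻ ρ in Ioo (0 : ℝ) s, ENNReal.ofReal (ρ ^ n) * h s := by
        rw [lintegral_mul_const]
        exact ENNReal.measurable_ofReal.comp (measurable_id.pow_const n)
      rw [Set.indicator_of_mem (Set.mem_Ioi.2 hs), ← br5_lintegral_pow n s hs.le, hmc,
        ← lintegral_indicator measurableSet_Ioo]
      refine lintegral_congr fun ρ => ?_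
      rw [Set.indicator_apply]
      split_ifs with hρ
      · exact hKin ρ s hρ.1 hρ.2
      · exact hKout ρ s (fun hmem => hρ hmem)
    · rw [Set.indicator_of_notMem (fun hmem => hs (Set.mem_Ioi.1 hmem))]
      have hz : ∀ ρ, K (ρ, s) = 0 := fun ρ =>
        hKout ρ s (fun hmem => hs (hmem.1.trans hmem.2))
      simp [hz]
  have hcast : (n + 1 : ℝ≥0∞) = ENNReal.ofReal ((n : ℝ) + 1) := by
    rw [ENNReal.ofReal_add (Nat.cast_nonneg n) zero_le_one]
    simp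
  calc (n + 1 : ℝ≥0∞) * ∫⁻ ρ in Ioi (0 : ℝ), ENNReal.ofReal (ρ ^ n) * ∫⁻ s in Ioi ρ, h s
      = (n + 1 : ℝ≥0∞) * ∫⁻ ρ, ∫⁻ s, K (ρ, s) := by
        rw [← lintegral_indicator measurableSet_Ioi]
        congr 1
        exact lintegral_congr fun ρ => (h1 ρ).symm
    _ = (n + 1 : ℝ≥0∞) * ∫⁻ s, ∫⁻ ρ, K (ρ, s) := by
        rw [lintegral_lintegral_swap (f := fun ρ s => K (ρ, s))
          (show AEMeasurable (Function.uncurry fun ρ s => K (ρ, s)) _ from hK.aemeasurable)]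
    _ = (n + 1 : ℝ≥0∞)
          * ∫⁻ s in Ioi (0 : ℝ), ENNReal.ofReal (s ^ (n + 1) / ((n : ℝ) + 1)) * h s := by
        rw [← lintegral_indicator measurableSet_Ioi]
        congr 1
        exact lintegral_congr fun s => h2 s
    _ = ∫⁻ s in Ioi (0 : ℝ),
          (n + 1 : ℝ≥0∞) * (ENNReal.ofReal (s ^ (n + 1) / ((n : ℝ) + 1)) * h s) := by
        rw [lintegral_const_mul]
        exact (ENNReal.measurable_ofReal.comp
          ((measurable_id.pow_const (n + 1)).div_const _)).mul hh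
    _ = ∫⁻ s in Ioi (0 : ℝ), ENNReal.ofReal (s ^ (n + 1)) * h s := by
        refine lintegral_congr fun s => ?_
        rw [← mul_assoc, hcast, ← ENNReal.ofReal_mul (by positivity)]
        congr 2
        field_simp

end Vale.Agent.Lib.P137.H30
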