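import Mathlib
import Vale.Agent.Lib.P137.Defs

/-!
# P137 pool job E (second copy, helper30): the radial variation is at most a weighted integral

For a profile `G` that is nonincreasing on `(0, ∞)`, Abel summation gives
`radialVar d G ≤ (d - 1) * ∫ ρ ^ (d - 2) * G ρ` over `(0, ∞)`.
-/

open MeasureTheory

namespace Vale.Agent.Lib.P137.H30

open Vale.Agent.Lib.P137

/-- One interval: if `G ≥ c` on `(a, b]` then
`(b ^ (e + 1) - a ^ (e + 1)) * c ≤ (e + 1) * ∫ t in (a, b], t ^ e * G t`. -/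
theorem jE_key (e : ℕ) (a b : ℝ) (ha : 0 ≤ a) (hab : a ≤ b) (c : ENNReal) (G : ℝ → ENNReal)
    (hc : ∀ t ∈ Set.Ioc a b, c ≤ G t) :
    ENNReal.ofReal (b ^ (e + 1) - a ^ (e + 1)) * c
      ≤ ((e + 1 : ℕ) : ENNReal) * ∫⁻ t in Set.Ioc a b, ENNReal.ofReal (t ^ e) * G t := by
  have h1 : ∫⁻ t in Set.Ioc a b, ENNReal.ofReal (t ^ e)
      = ENNReal.ofReal ((b ^ (e + 1) - a ^ (e + 1)) / ((e : ℝ) + 1)) := by
    rw [← integral_pow, intervalIntegral.integral_of_le hab,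
      ofReal_integral_eq_lintegral_ofReal]
    · exact (continuous_pow e).integrableOn_Ioc
    · refine (ae_restrict_iff' measurableSet_Ioc).2 (Filter.Eventually.of_forall fun t ht => ?_)
      exact pow_nonneg (le_trans ha ht.1.le) e
  have h2 : ENNReal.ofReal (b ^ (e + 1) - a ^ (e + 1))
      = ((e + 1 : ℕ) : ENNReal) * ENNReal.ofReal ((b ^ (e + 1) - a ^ (e + 1)) / ((e : ℝ) + 1)) := by
    rw [← ENNReal.ofReal_natCast (e + 1), ← ENNReal.ofReal_mul (by positivity)]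
    congr 1
    push_cast
    field_simp
  have h3 : ∫⁻ t in Set.Ioc a b, ENNReal.ofReal (t ^ e) * c
      ≤ ∫⁻ t in Set.Ioc a b, ENNReal.ofReal (t ^ e) * G t := by
    refine setLIntegral_mono' measurableSet_Ioc fun t ht => ?_
    gcongr
    exact hc t ht
  have h4 : ∫⁻ t in Set.Ioc a b, ENNReal.ofReal (t ^ e) * c
      = (∫⁻ t in Set.Ioc a b, ENNReal.ofReal (t ^ e)) * c := by
    rw [lintegral_mul_const]
    exact ENNReal.measurable_ofReal.comp (measurable_id.pow_const e)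
  calc ENNReal.ofReal (b ^ (e + 1) - a ^ (e + 1)) * c
      = ((e + 1 : ℕ) : ENNReal) * ∫⁻ t in Set.Ioc a b, ENNReal.ofReal (t ^ e) * c := by
        rw [h4, h1, h2, mul_assoc]
    _ ≤ ((e + 1 : ℕ) : ENNReal) * ∫⁻ t in Set.Ioc a b, ENNReal.ofReal (t ^ e) * G t := by
        gcongr

/-- The strengthened induction statement (Abel summation). -/
theorem jE_abel (e : ℕ) (G : ℝ → ENNReal) (hG : AntitoneOn G (Set.Ioi 0)) :
    ∀ (n : ℕ) (ρ : Fin (n + 1) → ℝ), StrictMono ρ → 0 < ρ 0 →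
      (∑ j : Fin n, ENNReal.ofReal (ρ j.castSucc ^ (e + 1)) * (G (ρ j.castSucc) - G (ρ j.succ)))
          + ENNReal.ofReal (ρ (Fin.last n) ^ (e + 1)) * G (ρ (Fin.last n))
        ≤ ((e + 1 : ℕ) : ENNReal)
          * ∫⁻ t in Set.Ioc 0 (ρ (Fin.last n)), ENNReal.ofReal (t ^ e) * G t := by
  intro n
  induction n with
  | zero =>
    intro ρ _ h0
    have hk := jE_key e 0 (ρ 0) le_rfl h0.le (G (ρ 0)) G (fun t ht =>
      hG (Set.mem_Ioi.2 ht.1) (Set.mem_Ioi.2 h0) ht.2)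
    simp only [Finset.univ_eq_empty, Finset.sum_empty, zero_add]
    have e0 : (Fin.last 0 : Fin 1) = 0 := rfl
    rw [e0]
    simpa using hk
  | succ n ih =>
    intro ρ hρ h0
    have hρ' : StrictMono (fun j : Fin (n + 1) => ρ j.castSucc) :=
      fun i j hij => hρ (Fin.castSucc_lt_castSucc_iff.2 hij)
    have ih' := ih (fun j : Fin (n + 1) => ρ j.castSucc) hρ' h0
    obtain ⟨A, hA⟩ : ∃ A : ℝ, A = ρ (Fin.last n).castSucc := ⟨_, rfl⟩
    obtain ⟨B, hB⟩ : ∃ B : ℝ, B = ρ (Fin.last (n + 1)) := ⟨_, rfl⟩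
    have hAB : A < B := by
      rw [hA, hB]
      exact hρ (Fin.castSucc_lt_last _)
    have hA0 : 0 < A := by
      rw [hA]
      exact lt_of_lt_of_le h0 (hρ.monotone (Fin.zero_le _))
    have hgle : G B ≤ G A := hG (Set.mem_Ioi.2 hA0) (Set.mem_Ioi.2 (hA0.trans hAB)) hAB.le
    have hk := jE_key e A B hA0.le hAB.le (G B) G (fun t ht =>
      hG (Set.mem_Ioi.2 (hA0.trans ht.1)) (Set.mem_Ioi.2 (hA0.trans hAB)) ht.2)
    have hpow : A ^ (e + 1) ≤ B ^ (e + 1) := pow_le_pow_left₀ hA0.le hAB.le _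
    have hsplit : ENNReal.ofReal (B ^ (e + 1))
        = ENNReal.ofReal (A ^ (e + 1)) + ENNReal.ofReal (B ^ (e + 1) - A ^ (e + 1)) := by
      rw [← ENNReal.ofReal_add (pow_nonneg hA0.le _) (sub_nonneg.2 hpow)]
      congr 1
      ring
    have hunion : Set.Ioc (0 : ℝ) A ∪ Set.Ioc A B = Set.Ioc 0 B :=
      Set.Ioc_union_Ioc_eq_Ioc hA0.le hAB.le
    have hint : ∫⁻ t in Set.Ioc 0 B, ENNReal.ofReal (t ^ e) * G t
        = (∫⁻ t in Set.Ioc 0 A, ENNReal.ofReal (t ^ e) * G t)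
          + ∫⁻ t in Set.Ioc A B, ENNReal.ofReal (t ^ e) * G t := by
      rw [← hunion, lintegral_union measurableSet_Ioc]
      exact Set.disjoint_left.2 fun t ht1 ht2 => not_lt.2 ht1.2 ht2.1
    rw [Fin.sum_univ_castSucc]
    simp only [Fin.succ_last, Fin.succ_castSucc]
    rw [← hA, ← hB]
    have ih2 : (∑ j : Fin n, ENNReal.ofReal (ρ j.castSucc.castSucc ^ (e + 1))
          * (G (ρ j.castSucc.castSucc) - G (ρ j.succ.castSucc)))
        + ENNReal.ofReal (A ^ (e + 1)) * G A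
        ≤ ((e + 1 : ℕ) : ENNReal) * ∫⁻ t in Set.Ioc 0 A, ENNReal.ofReal (t ^ e) * G t := by
      rw [hA]
      exact ih'
    rw [hint, mul_add]
    have hterm : ENNReal.ofReal (A ^ (e + 1)) * (G A - G B) + ENNReal.ofReal (B ^ (e + 1)) * G B
        = ENNReal.ofReal (A ^ (e + 1)) * G A
          + ENNReal.ofReal (B ^ (e + 1) - A ^ (e + 1)) * G B := by
      rw [hsplit, add_mul, ← add_assoc, ← mul_add, tsub_add_cancel_of_le hgle]
    calc (∑ j : Fin n, ENNReal.ofReal (ρ j.castSucc.castSucc ^ (e + 1))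
            * (G (ρ j.castSucc.castSucc) - G (ρ j.succ.castSucc)))
          + ENNReal.ofReal (A ^ (e + 1)) * (G A - G B) + ENNReal.ofReal (B ^ (e + 1)) * G B
        = ((∑ j : Fin n, ENNReal.ofReal (ρ j.castSucc.castSucc ^ (e + 1))
            * (G (ρ j.castSucc.castSucc) - G (ρ j.succ.castSucc)))
          + ENNReal.ofReal (A ^ (e + 1)) * G A)
          + ENNReal.ofReal (B ^ (e + 1) - A ^ (e + 1)) * G B := by
          rw [add_assoc, hterm, ← add_assoc]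
      _ ≤ _ := add_le_add ih2 hk

theorem radialVar_le_integral {d : ℕ} (hd : 2 ≤ d) (G : ℝ → ENNReal)
    (hG : AntitoneOn G (Set.Ioi 0)) :
    radialVar d G ≤ ((d - 1 : ℕ) : ENNReal) *
      ∫⁻ ρ in Set.Ioi (0 : ℝ), ENNReal.ofReal (ρ ^ (d - 2)) * G ρ := by
  obtain ⟨e, rfl⟩ : ∃ e, d = e + 2 := ⟨d - 2, by omega⟩
  have e1 : e + 2 - 1 = e + 1 := rfl
  have e2 : e + 2 - 2 = e := rfl
  rw [e1, e2]
  unfold radialVar
  refine iSup_le fun n => iSup_le fun ρ => iSup_le fun hρ => ?_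
  rw [e1]
  have h := jE_abel e G hG n ρ hρ.1 hρ.2
  have hmono : ∫⁻ t in Set.Ioc 0 (ρ (Fin.last n)), ENNReal.ofReal (t ^ e) * G t
      ≤ ∫⁻ t in Set.Ioi (0 : ℝ), ENNReal.ofReal (t ^ e) * G t :=
    lintegral_mono_set (fun t ht => Set.mem_Ioi.2 ht.1)
  refine le_trans (le_trans le_self_add h) ?_
  gcongr

end Vale.Agent.Lib.P137.H30
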